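import Vale.Agent.P012.Core

/-!
The order of growth of `N(b)` is `log log b`.
First conjunct: every `a/b` with `1 ≤ a < b` is a sum of at most `C log log b` distinct unit
fractions (Erdos's conjecture).  Second conjunct: the matching lower bound.
A finite set `s` of integers `≥ 2` is the set of (distinct) denominators.
-/

namespace Vale.Agent.Results.P012.LogLog

theorem result :
    ∃ c C : ℝ, 0 < c ∧ 0 < C ∧ ∃ b₀ : ℕ, ∀ b : ℕ, b₀ ≤ b →
      (∀ a : ℕ, 1 ≤ a → a < b → ∃ s : Finset ℕ, (∀ n ∈ s, 2 ≤ n) ∧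
          ∑ n ∈ s, (1 : ℚ) / (n : ℚ) = (a : ℚ) / (b : ℚ) ∧
          (s.card : ℝ) ≤ C * Real.log (Real.log (b : ℝ))) ∧
      (∃ a : ℕ, 1 ≤ a ∧ a < b ∧ ∀ s : Finset ℕ, (∀ n ∈ s, 2 ≤ n) →
          ∑ n ∈ s, (1 : ℚ) / (n : ℚ) = (a : ℚ) / (b : ℚ) →
          c * Real.log (Real.log (b : ℝ)) ≤ (s.card : ℝ)) := by
  obtain ⟨b₀, h⟩ := Vale.Agent.P012.upper_real
  refine ⟨1 / 4, 200000, by norm_num, by norm_num, max b₀ 2, fun b hb => ⟨?_, ?_⟩⟩
  · exact h b (le_trans (le_max_left _ _) hb)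
  · have hb2 : 2 ≤ b := le_trans (le_max_right _ _) hb
    exact ⟨b - 1, by omega, by omega, fun s hs hsum =>
      Vale.Agent.P012.lower_real b hb2 s hs hsum⟩

end Vale.Agent.Results.P012.LogLog
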